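import Vale.Agent.P266.Curve.Series

/-!
P266: identities between the functions on the branches.
-/

namespace P266

noncomputable section

theorem algebraMap_laurent (c : ℂ) : algebraMap ℂ (LaurentSeries ℂ) c = HahnSeries.C c := by
  rw [Algebra.algebraMap_eq_smul_one, ← HahnSeries.C_mul_eq_smul, mul_one]

theorem smul_apply_K (c : ℂ) (f : K) (p : Pt) : (c • f) p = HahnSeries.C c * f p := by
  rw [Pi.smul_apply, ← HahnSeries.C_mul_eq_smul]

theorem natCast_eq_smul (n : ℕ) : (n : K) = (n : ℂ) • (1 : K) := by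
  funext p; rw [smul_apply_K]; simp

theorem wpow_mul (k l : ℤ) : wpow k * wpow l = wpow (k + l) := by
  funext p; simp [wpow]

theorem wpow_zero : wpow 0 = 1 := by funext p; simp [wpow]

theorem wpow_nat (k : ℕ) : wpow (k : ℤ) = wK ^ k := by
  funext p; simp [wpow, wK]

theorem wK_eq : wK = wpow 1 := rfl

theorem iwK_eq : iwK = wpow (-1) := rfl

theorem w_mul_iw : wK * iwK = 1 := by rw [wK_eq, iwK_eq, wpow_mul, ← wpow_zero]; norm_num

theorem xK_ne (p : Pt) : xK p ≠ 0 := fun h => by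
  have h1 := congrArg (fun f : LaurentSeries ℂ => f.coeff ((0 : ℕ) : ℤ)) h
  simp only [xK, HahnSeries.ofPowerSeries_apply_coeff, HahnSeries.coeff_zero] at h1
  simp [xs_spec.1] at h1
  exact pa_ne p h1

theorem xK_pow : xK ^ 5 = 1 - wK ^ 5 := by
  funext p
  have e : (PowerSeries.C (pa p) * xs) ^ 5 = 1 - PowerSeries.X ^ 5 := by
    rw [mul_pow, xs_spec.2, ← map_pow, pa_pow, map_one, one_mul]
  simp only [Pi.pow_apply, Pi.sub_apply, Pi.one_apply, xK, wK, ← map_pow, e, map_sub, map_one]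
  simp

theorem yK_pow : (90 : K) * yK ^ 5
    = 1 - wK ^ 5 - wK * (1 - (12 : K) * xK * yK - (30 : K) * xK ^ 2 * yK ^ 2) := by
  funext p
  obtain ⟨-, e⟩ := ys_spec (ps p)
  unfold yEqn at e
  have e' : (90 : PowerSeries ℂ) * (PowerSeries.C (pb p) * ys (ps p)) ^ 5 =
      1 - PowerSeries.X ^ 5 - PowerSeries.X * (1 -
        12 * (PowerSeries.C (pa p) * xs) * (PowerSeries.C (pb p) * ys (ps p)) -
        30 * (PowerSeries.C (pa p) * xs) ^ 2 * (PowerSeries.C (pb p) * ys (ps p)) ^ 2) := by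
    have c : (90 : PowerSeries ℂ) * PowerSeries.C (pb p) ^ 5 = 1 := by
      rw [← map_pow, ← map_one (PowerSeries.C (R := ℂ)), ← pb_pow p, map_mul, map_ofNat]
    rw [mul_pow, ← mul_assoc, c, one_mul, e]
    simp only [ps, map_mul, map_pow, map_ofNat]
    ring
  have e2 := congrArg (HahnSeries.ofPowerSeries ℤ ℂ) e'
  simp only [map_mul, map_pow, map_sub, map_one, map_ofNat, HahnSeries.ofPowerSeries_X] at e2
  simp only [Pi.mul_apply, Pi.pow_apply, Pi.sub_apply, Pi.one_apply, Pi.ofNat_apply, xK, yK, wK,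
    map_mul, map_pow]
  exact e2

theorem gy_apply_coeff_zero (p : Pt) :
    (((450 : K) * yK ^ 4 - wK * ((12 : K) * xK + (60 : K) * xK ^ 2 * yK)) p).coeff 0
      = 450 * pb p ^ 4 := by
  have e : ((450 : K) * yK ^ 4 - wK * ((12 : K) * xK + (60 : K) * xK ^ 2 * yK)) p =
      HahnSeries.ofPowerSeries ℤ ℂ (450 * (PowerSeries.C (pb p) * ys (ps p)) ^ 4 - PowerSeries.X *
        (12 * (PowerSeries.C (pa p) * xs) +
          60 * (PowerSeries.C (pa p) * xs) ^ 2 * (PowerSeries.C (pb p) * ys (ps p)))) := by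
    simp only [map_mul, map_pow, map_sub, map_add, map_ofNat, HahnSeries.ofPowerSeries_X,
      Pi.mul_apply, Pi.pow_apply, Pi.sub_apply, Pi.add_apply, Pi.ofNat_apply, xK, yK, wK]
  rw [e, show (0 : ℤ) = ((0 : ℕ) : ℤ) from rfl, HahnSeries.ofPowerSeries_apply_coeff]
  rw [show (450 : PowerSeries ℂ) = PowerSeries.C 450 from (map_ofNat _ _).symm]
  simp [(ys_spec (ps p)).1]

theorem gy_ne (p : Pt) :
    ((450 : K) * yK ^ 4 - wK * ((12 : K) * xK + (60 : K) * xK ^ 2 * yK)) p ≠ 0 := fun h => by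
  have h1 := gy_apply_coeff_zero p
  rw [h] at h1
  simp [pb_ne p] at h1

theorem cancelK {a b c : K} (ha : ∀ p, a p ≠ 0) (h : a * b = a * c) : b = c :=
  funext fun p => mul_left_cancel₀ (ha p) (congrFun h p)

theorem dd_one : dd (1 : K) = 0 := by simpa using dd_mul (1 : K) 1

theorem dd_natCast (n : ℕ) : dd (n : K) = 0 := by
  have h := dd_natCast_mul n (1 : K); rwa [mul_one, dd_one, mul_zero] at h

theorem dd_sub (f g : K) : dd (f - g) = dd f - dd g := by
  have h := dd_add (f - g) g; rw [sub_add_cancel] at h; rw [h]; ring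

theorem dd_pow_succ (f : K) (n : ℕ) : dd (f ^ (n + 1)) = (n + 1 : K) * f ^ n * dd f := by
  induction n with
  | zero => simp
  | succ k ih => rw [pow_succ, dd_mul, ih]; push_cast; ring

theorem dd_wpow (k : ℤ) : dd (wpow k) = (k : K) * (jac * iwK * wpow k) := by
  funext p
  have h : eulerL (HahnSeries.single k (1 : ℂ)) = HahnSeries.single k (k : ℂ) := by
    ext n
    by_cases hn : n = k
    · subst hn; simp [eulerL]
    · simp [eulerL, hn]
  have h2 : (HahnSeries.single k (k : ℂ) : LaurentSeries ℂ) =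
      (k : LaurentSeries ℂ) * HahnSeries.single k 1 := by
    rw [← map_intCast (HahnSeries.C : ℂ →+* LaurentSeries ℂ), HahnSeries.C_apply,
      HahnSeries.single_mul_single]
    simp
  simp only [dd, ddw, Pi.mul_apply, Pi.intCast_apply, wpow, iwK, derivative_eq_euler, h, h2]
  ring

theorem dd_wK : dd wK = jac := by
  rw [wK_eq, dd_wpow, Int.cast_one, one_mul, mul_assoc, ← wK_eq, mul_comm iwK, w_mul_iw, mul_one]

theorem dd_xK : dd xK =
    -((5 : K) * wK ^ 4 * ((450 : K) * yK ^ 4 - wK * ((12 : K) * xK + (60 : K) * xK ^ 2 * yK))) := by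
  have h := congrArg dd xK_pow
  rw [show (5 : ℕ) = 4 + 1 from rfl, dd_pow_succ, dd_sub, dd_one, dd_pow_succ, dd_wK] at h
  refine cancelK (a := (5 : K) * xK ^ 4) (fun p => ?_) ?_
  · refine mul_ne_zero ?_ (pow_ne_zero _ (xK_ne p))
    show ((5 : ℕ) : LaurentSeries ℂ) ≠ 0
    rw [← map_natCast (HahnSeries.C : ℂ →+* LaurentSeries ℂ)]
    simp
  · simp only [jac] at h
    linear_combination h

theorem hat_x : dd xK + (1 : K) * kap * xK =
    -((5 : K) * iwK * ((450 : K) * yK ^ 4 - wK * ((12 : K) * xK + (60 : K) * xK ^ 2 * yK))) := by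
  rw [dd_xK, kap, jac]
  linear_combination (-(5 : K) * iwK *
      ((450 : K) * yK ^ 4 - wK * ((12 : K) * xK + (60 : K) * xK ^ 2 * yK))) * xK_pow +
    ((5 : K) * wK ^ 4 *
      ((450 : K) * yK ^ 4 - wK * ((12 : K) * xK + (60 : K) * xK ^ 2 * yK))) * w_mul_iw

theorem hat_y : dd yK + (1 : K) * kap * yK =
    -((5 : K) * xK ^ 4 * ((5 : K) * iwK - 4 + (24 : K) * xK * yK))
      - (5 : K) * ((12 : K) * yK + (60 : K) * xK * yK ^ 2) := by
  refine cancelK gy_ne ?_
  have h := congrArg dd yK_pow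
  have c90 : dd (90 : K) = 0 := by simpa using dd_natCast 90
  have c12 : dd (12 : K) = 0 := by simpa using dd_natCast 12
  have c30 : dd (30 : K) = 0 := by simpa using dd_natCast 30
  simp only [dd_mul, dd_sub, dd_pow_succ yK 4, dd_pow_succ yK 1, dd_pow_succ xK 1,
    dd_pow_succ wK 4, dd_wK, dd_one, c90, c12, c30] at h
  rw [dd_xK] at h
  rw [kap, jac]
  simp only [jac] at h
  set G := (450 : K) * yK ^ 4 - wK * ((12 : K) * xK + (60 : K) * xK ^ 2 * yK) with hG
  linear_combination h + (-(25 : K) * xK ^ 4 * G * iwK) * yK_pow +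
    (-(5 : K) * G * ((12 : K) * yK + (60 : K) * xK * yK ^ 2)) * xK_pow +
    ((5 : K) * xK ^ 4 * G * ((5 : K) * wK ^ 4
      + (5 : K) * (1 - (12 : K) * xK * yK - (30 : K) * xK ^ 2 * yK ^ 2)
      + (12 : K) * xK * yK + (60 : K) * xK ^ 2 * yK ^ 2)) * w_mul_iw

end

end P266
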