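import Vale.Agent.P266.Vf

/-!
P266: the series of the branches.
-/

namespace P266

open PowerSeries

noncomputable section

theorem coeff_mul_head {k : ℕ} {a b : ℂ⟦X⟧} (h : ∀ j < k, coeff j a = 0) :
    coeff k (a * b) = coeff k a * constantCoeff b := by
  rw [coeff_mul, Finset.sum_eq_single (k, 0)]
  · simp
  · rintro ⟨i, j⟩ hij hne
    have hij' : i + j = k := Finset.HasAntidiagonal.mem_antidiagonal.1 hij
    have : i < k := by
      by_contra hc
      exact hne (Prod.ext (by simp only; omega) (by simp only; omega))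
    simp [h i this]
  · intro h'
    exact absurd (Finset.HasAntidiagonal.mem_antidiagonal.2 (by simp)) h'

/-- `F` has slope `5` at constant term `1`. -/
def Slope (F : ℂ⟦X⟧ → ℂ⟦X⟧) : Prop :=
  ∀ u v, constantCoeff u = 1 → constantCoeff v = 1 →
    ∃ K, constantCoeff K = 5 ∧ F u - F v = (u - v) * K

theorem Slope.unique {F : ℂ⟦X⟧ → ℂ⟦X⟧} (hF : Slope F) {u v : ℂ⟦X⟧}
    (hu : constantCoeff u = 1) (hv : constantCoeff v = 1) {N : ℕ}
    (h : ∀ k < N, coeff k (F u) = coeff k (F v)) : ∀ k < N, coeff k u = coeff k v := by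
  obtain ⟨K, hK, e⟩ := hF u v hu hv
  intro k
  induction k using Nat.strong_induction_on with
  | _ k ih =>
    intro hk
    have h1 : coeff k (F u - F v) = 0 := by rw [map_sub, h k hk, sub_self]
    rw [e, coeff_mul_head (fun j hj => by rw [map_sub, ih j hj (hj.trans hk), sub_self]), hK,
      map_sub] at h1
    exact sub_eq_zero.1 ((mul_eq_zero.1 h1).resolve_right (by norm_num))

/-- Successive corrections. -/
def approx (F : ℂ⟦X⟧ → ℂ⟦X⟧) : ℕ → ℂ⟦X⟧
  | 0 => 1
  | k + 1 => approx F k - PowerSeries.monomial k (coeff k (F (approx F k)) / 5)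

theorem approx_spec {F : ℂ⟦X⟧ → ℂ⟦X⟧} (hF : Slope F) (h0 : constantCoeff (F 1) = 0) (k : ℕ) :
    constantCoeff (approx F k) = 1 ∧ ∀ j < k, coeff j (F (approx F k)) = 0 := by
  induction k with
  | zero => simp [approx]
  | succ k ih =>
    have hc : constantCoeff (approx F (k + 1)) = 1 := by
      rcases Nat.eq_zero_or_pos k with rfl | hk
      · simp [approx, h0]
      · simp only [approx, map_sub, ih.1, ← coeff_zero_eq_constantCoeff_apply, coeff_monomial]
        rw [if_neg (by omega), sub_zero]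
    refine ⟨hc, fun j hj => ?_⟩
    obtain ⟨K, hK, e⟩ := hF (approx F (k + 1)) (approx F k) hc ih.1
    have hd : ∀ i, coeff i (approx F (k + 1) - approx F k) =
        if i = k then -(coeff k (F (approx F k)) / 5) else 0 := by
      intro i
      simp only [approx, map_sub, coeff_monomial]
      split_ifs <;> ring
    have e' : F (approx F (k + 1)) = F (approx F k) + (approx F (k + 1) - approx F k) * K := by
      rw [← e]; ring
    rw [e', map_add]
    rcases lt_or_eq_of_le (Nat.le_of_lt_succ hj) with hjk | rfl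
    · rw [ih.2 j hjk, coeff_mul_head fun i hi => by rw [hd, if_neg (by omega)], hd,
        if_neg (by omega), zero_mul, add_zero]
    · rw [coeff_mul_head fun i hi => by rw [hd, if_neg (by omega)], hd, if_pos rfl, hK]
      ring

theorem Slope.exists {F : ℂ⟦X⟧ → ℂ⟦X⟧} (hF : Slope F) (h0 : constantCoeff (F 1) = 0) :
    ∃ u, constantCoeff u = 1 ∧ F u = 0 := by
  have hs : ∀ a b, a ≤ b → ∀ j < a, coeff j (approx F b) = coeff j (approx F a) := by
    intro a b hab
    induction b, hab using Nat.le_induction with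
    | base => simp
    | succ b hb ih =>
      intro j hj
      rw [approx, map_sub, ih j hj, coeff_monomial, if_neg (by omega), sub_zero]
  refine ⟨mk fun k => coeff k (approx F (k + 1)), ?_, ?_⟩
  · rw [← coeff_zero_eq_constantCoeff_apply, coeff_mk, coeff_zero_eq_constantCoeff_apply]
    exact (approx_spec hF h0 1).1
  · set u := mk fun k => coeff k (approx F (k + 1)) with hu
    have hu1 : constantCoeff u = 1 := by
      rw [hu, ← coeff_zero_eq_constantCoeff_apply, coeff_mk, coeff_zero_eq_constantCoeff_apply]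
      exact (approx_spec hF h0 1).1
    refine PowerSeries.ext fun n => ?_
    obtain ⟨K, _, e⟩ := hF u (approx F (n + 1)) hu1 (approx_spec hF h0 (n + 1)).1
    have e' : F u = F (approx F (n + 1)) + (u - approx F (n + 1)) * K := by rw [← e]; ring
    rw [e', map_add, (approx_spec hF h0 (n + 1)).2 n (by omega), map_zero, zero_add, coeff_mul]
    refine Finset.sum_eq_zero ?_
    rintro ⟨i, j⟩ hij
    have : i + j = n := Finset.HasAntidiagonal.mem_antidiagonal.1 hij
    rw [map_sub, hu, coeff_mk, hs (i + 1) (n + 1) (by omega) i (by omega), sub_self, zero_mul]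

theorem slope_x : Slope fun u => u ^ 5 - (1 - X ^ 5) := fun u v hu hv =>
  ⟨u ^ 4 + u ^ 3 * v + u ^ 2 * v ^ 2 + u * v ^ 3 + v ^ 4, by simp [hu, hv]; norm_num, by ring⟩

theorem slope_y (s : ℂ) : Slope fun u => u ^ 5 - (1 - X ^ 5 - X *
    (1 - C (12 * s) * (xs * u) - C (30 * s ^ 2) * (xs * u) ^ 2)) := fun u v hu hv =>
  ⟨u ^ 4 + u ^ 3 * v + u ^ 2 * v ^ 2 + u * v ^ 3 + v ^ 4
      - X * (C (12 * s) * xs + C (30 * s ^ 2) * xs ^ 2 * (u + v)),
    by simp [hu, hv]; norm_num, by ring⟩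

theorem xs_spec : PowerSeries.constantCoeff xs = 1 ∧ xs ^ 5 = 1 - PowerSeries.X ^ 5 := by
  have h : ∃ u : ℂ⟦X⟧, constantCoeff u = 1 ∧ u ^ 5 = 1 - X ^ 5 := by
    obtain ⟨u, h1, h2⟩ := slope_x.exists (by simp)
    exact ⟨u, h1, sub_eq_zero.1 h2⟩
  rw [xs, dif_pos h]
  exact h.choose_spec

theorem ys_spec (s : ℂ) : PowerSeries.constantCoeff (ys s) = 1 ∧ yEqn s (ys s) := by
  have h : ∃ u : ℂ⟦X⟧, constantCoeff u = 1 ∧ yEqn s u := by
    obtain ⟨u, h1, h2⟩ := (slope_y s).exists (by simp)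
    exact ⟨u, h1, sub_eq_zero.1 h2⟩
  rw [ys, dif_pos h]
  exact h.choose_spec

theorem xs_unique {u : PowerSeries ℂ} (h0 : PowerSeries.constantCoeff u = 1) {N : ℕ}
    (h : ∀ k < N, PowerSeries.coeff k (u ^ 5) = PowerSeries.coeff k (1 - PowerSeries.X ^ 5)) :
    ∀ k < N, PowerSeries.coeff k u = PowerSeries.coeff k xs :=
  slope_x.unique h0 xs_spec.1 fun k hk => by
    rw [show xs ^ 5 - (1 - X ^ 5) = 0 from sub_eq_zero.2 xs_spec.2, map_sub, h k hk, sub_self,
      map_zero]

theorem ys_unique (s : ℂ) {u : PowerSeries ℂ} (h0 : PowerSeries.constantCoeff u = 1) {N : ℕ}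
    (h : ∀ k < N, PowerSeries.coeff k (u ^ 5) = PowerSeries.coeff k
      (1 - PowerSeries.X ^ 5 - PowerSeries.X * (1 - PowerSeries.C (12 * s) * (xs * u)
        - PowerSeries.C (30 * s ^ 2) * (xs * u) ^ 2))) :
    ∀ k < N, PowerSeries.coeff k u = PowerSeries.coeff k (ys s) := by
  refine (slope_y s).unique h0 (ys_spec s).1 fun k hk => ?_
  have e := (ys_spec s).2
  unfold yEqn at e
  rw [sub_eq_zero.2 e, map_sub, h k hk, sub_self, map_zero]

theorem zeta_prim : IsPrimitiveRoot zeta 5 := by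
  have h := Complex.isPrimitiveRoot_exp 5 (by norm_num)
  simpa [zeta] using h

theorem pa_pow (p : Pt) : pa p ^ 5 = 1 := by
  rw [pa, ← pow_mul, mul_comm, pow_mul, zeta_prim.pow_eq_one, one_pow]

theorem beta_pow : beta ^ 5 = 1 / 90 := by
  rw [beta, ← Complex.ofReal_pow, ← Real.rpow_natCast _ 5, ← Real.rpow_mul (by norm_num)]
  norm_num

theorem pb_pow (p : Pt) : 90 * pb p ^ 5 = 1 := by
  rw [pb, mul_pow, beta_pow, ← pow_mul, mul_comm (p.2 : ℕ), pow_mul, zeta_prim.pow_eq_one]
  norm_num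

theorem beta_ne : beta ≠ 0 := fun h => by simpa [h] using beta_pow

theorem pa_ne (p : Pt) : pa p ≠ 0 := fun h => by simpa [h] using pa_pow p

theorem pb_ne (p : Pt) : pb p ≠ 0 := fun h => by simpa [h] using pb_pow p

theorem pa_inj {p q : Pt} (h : pa p = pa q) : p.1 = q.1 :=
  Fin.ext (zeta_prim.pow_inj p.1.2 q.1.2 h)

theorem pb_inj {p q : Pt} (h : pb p = pb q) : p.2 = q.2 :=
  Fin.ext (zeta_prim.pow_inj p.2.2 q.2.2 (mul_left_cancel₀ beta_ne h))

theorem gv_ne_zero (p : Pt) : 1 - 6 * ps p ^ 2 ≠ 0 := by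
  intro h
  have h5 : (ps p ^ 2) ^ 5 = 1 / 8100 := by
    have hb : pb p ^ 5 = 1 / 90 := by linear_combination pb_pow p / 90
    calc (ps p ^ 2) ^ 5 = (pa p ^ 5) ^ 2 * (pb p ^ 5) ^ 2 := by rw [ps]; ring
      _ = _ := by rw [pa_pow, hb]; norm_num
  have h6 : ps p ^ 2 = 1 / 6 := by linear_combination -h / 6
  rw [h6] at h5
  norm_num at h5

end

end P266
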